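import Vale.Agent.N352.E.Top8

namespace Vale.Agent.Results.P352.A0EnergyI

open Vale.Agent.N352

/-- **Scale invariant theories with energy bounds: finiteness is only needed for the stress tensor.**

Basic hypotheses (`Hb`). `Q` is a unitary scale covariant theory with positive energy, graded by
`G = (-1)^F`, with generators `A X` of the similitudes on the domain. The vacuum may be degenerate: the
translation invariant vectors are invariant under dilations and Lorentz transformations (`IVac`). `T`
is a symmetric conserved stress tensor whose charges are the Poincaré generators, with a finite
scaling law (any dimensions, logarithms are allowed). No finiteness is assumed for the other fields.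

Regularity (`Reg1`). The smeared fields are bounded by powers of the energy (`EBd`), and the
expectation values of the smeared stress tensor are bounded by those of `1 + H` (`FBT`). No von
Neumann algebras occur in these hypotheses. The bound on `T` can be replaced by strong locality of
`T` (`SL`) or by a local net (`LNg`).

(`Thn.conf`, `Thn.sup`) If `Q` contains the scalar fields of dimension two of its local extensions
(`Mx`), then `Q` is conformally invariant (`Conf`): `t = S + (∂∂ - η □) L`, built from fields of `Q`,
is a symmetric conserved traceless improvement of `T` with the same Poincaré charges, and the charges
of the currents `X^n t_{mn}`, `X` a conformal Killing vector field, act on all fields by the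
infinitesimal conformal transformations. The same holds for every theory `R` that contains `Q` as a
sector (`Over`).

(`Thn.ext`) Without `Mx`: the field `L` is constructed in a local extension `P` of `Q` in the same
Hilbert space (`Ex`), and `P`, also with further local fields, is conformally invariant.

(`Thn.pot`) If only `T` obeys energy bounds and is strongly local (`Reg2`), then the potential `l` of
the trace of the stress tensor `S` of dimension four, `tr S Ω = 3 □ l`, is weakly local relative to
all fields (`Wl`).

(`Wiu`, `WitD`) The hypotheses are not vacuous; they also hold for a theory with a degenerate
vacuum. -/
theorem result :
    (∀ (D D' : Type*) [NormedAddCommGroup D] [InnerProductSpace ℂ D] [NormedAddCommGroup D']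
      [InnerProductSpace ℂ D'], Di.Thn D D') ∧
    (∃ (D : Type) (_ : NormedAddCommGroup D) (_ : InnerProductSpace ℂ D), Di.Wiu D) ∧
    ∃ (D : Type) (_ : NormedAddCommGroup D) (_ : InnerProductSpace ℂ D), Di.WitD D :=
  ⟨fun D D' _ _ _ _ => E.Ti.thn D D', E.Ti.wiu, E.Ti.witD⟩

end Vale.Agent.Results.P352.A0EnergyI
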