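import Vale.Agent.N352.V6.Tv

namespace Vale.Agent.Results.P352.A0Posed

open Vale.Agent.N352

/-- **Scale invariance implies conformal invariance for all local fields of a regular theory.**

Setting. `Frame`: a Hilbert space with the vacuum, the grading `(-1)^F` and a unitary positive energy
representation of the Poincaré group and the dilations. `Theory`: operator valued tempered
distributions on a common invariant domain, with a cyclic vacuum, local in the graded sense.

Hypotheses (`Hyy`). `T` is a symmetric conserved stress tensor whose charges generate the
translations and the Lorentz transformations (`PGen`), and the charge of the local current
`x^n T_{mn} - J_m`, `J` a virial current, generates the dilations (`Vir`; not needed if the symmetry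
is unbroken, `IVac`, or the vacuum is unique). The defining fields have finite spin and finite
scaling support, logarithms are allowed (`Fin'`); or they form a covariant space of countable
dimension (`Cnt`); or they obey polynomial energy bounds, have finite spin, their dilates are linear
combinations of fields (`Cvr`), and finite scaling support is only assumed for `T`. One of the
standard regularity conditions holds (`Rgl`): the fields are affiliated or relatively local to a
Haag-Kastler net; or they obey polynomial energy bounds and `T` obeys form bounds or is strongly
local; or the vacuum is cyclic for a subtheory for which it is analytic, or which obeys linear energy
bounds.

(`Thy.inv`) The theory is conformally invariant (`CInv`). All fields that are local relative to the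
defining fields form a theory `R` (the Borchers class, `Bor`). It contains a symmetric, conserved and
traceless tensor `t` with the translation and Lorentz charges of `T`, and the charges of the currents
`X^n t_{mn}`, `X` a conformal Killing vector field, act on all fields of `R` by the infinitesimal
conformal transformations; the conformal Ward identities hold and `t` is a primary of dimension four.
The domain is generated by an extension `P` of the theory by fields of `R`; in the cases `Fin'` and
`Cnt` all fields of `P` are sums of derivatives of primaries of `R`.

(`Thy.conf`) If the scalars of dimension two of the extensions (for a net, in the cases `Fin'` and
`Cnt`: of the extensions that are affiliated to the dual net) are among the defining fields, then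
`t = S + (∂∂ - η □) L` is built from defining fields `S` and `L`.

(`Wiy`) The hypotheses are not vacuous: each alternative holds in a theory with a stress tensor whose
trace does not annihilate the vacuum. -/
theorem result :
    (∀ (H : Type*) [NormedAddCommGroup H] [InnerProductSpace ℂ H] [CompleteSpace H], Dh.Thy H) ∧
    ∃ (H : Type) (_ : NormedAddCommGroup H) (_ : InnerProductSpace ℂ H) (_ : CompleteSpace H),
      Dh.Wiy H :=
  ⟨H.thy, H.wiv⟩

end Vale.Agent.Results.P352.A0Posed
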